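import Vale.Agent.P328F.Samp

/-!
The counting algorithm on lists and its analysis.
-/

namespace Vale.Agent.P328F

open Finset hiding val
open Vale.Agent.P328 Vale.Agent.Lib.PTM Vale.Agent.Lib.PolyTime

/-- A list, lowered by `t` at the place `i`. -/
def lowL (l : List ℕ) (i t : ℕ) : List ℕ :=
  (List.range l.length).map fun i' => l.getD i' 0 - if i' = i then t else 0

theorem lowL_ofFn {k : ℕ} (v : Fin k → ℕ) (i : Fin k) (t : ℕ) :
    lowL (List.ofFn v) i t = List.ofFn (low v i t) := by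
  refine List.ext_getElem (by simp [lowL]) fun i' h1 h2 => ?_
  have h3 : i' < k := by simpa using h2
  simp only [lowL, List.getElem_map, List.getElem_range, List.getElem_ofFn, low]
  rw [getD_ofFn v ⟨i', h3⟩]
  simp only [Fin.ext_iff]

/-- The state: the current margins and the numerator and denominator of the estimate. -/
abbrev St : Type := Dat × ℕ × ℕ

/-- The threshold: the largest row sum divided by the number of columns, rounded up. -/
def thr (D : Dat) : ℕ := (D.r D.i0 + D.n - 1) / D.n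

/-- For each column, the number of samples whose entry in the largest row reaches the
threshold. -/
def cnts (D : Dat) (s K B : ℕ) (ρ : List Bool) : List ℕ :=
  (List.range D.n).map fun j =>
    sumR K fun k => if thr D ≤ ent (samp D s (blk B k ρ)) D.i0 j then 1 else 0

/-- One round. -/
def step (s K B : ℕ) (σ : St) (ρ : List Bool) : St :=
  if σ.1.N = 0 then σ else
    ((lowL σ.1.1 σ.1.i0 (thr σ.1), lowL σ.1.2 (amax (cnts σ.1 s K B ρ)) (thr σ.1)), σ.2.1 * K,
      σ.2.2 * (cnts σ.1 s K B ρ).getD (amax (cnts σ.1 s K B ρ)) 0)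

/-- The invariant after `k` rounds. -/
def Inv (m n : ℕ) (N Z η : ℝ) (k : ℕ) (σ : St) : Prop :=
  ∃ (r : Fin m → ℕ) (c : Fin n → ℕ), σ.1 = (List.ofFn r, List.ofFn c) ∧ ∑ i, r i = ∑ j, c j ∧
    ((∑ i, r i : ℕ) : ℝ) ≤ N * (1 - 1 / (m * n)) ^ k ∧ 0 < σ.2.2 ∧
    |(σ.2.1 : ℝ) * (tables r c).card - Z * σ.2.2| ≤ 2 * k * η * (Z * σ.2.2)

theorem exists_ge {m n : ℕ} {r : Fin m → ℕ} {c : Fin n → ℕ} {X : Fin m → Fin n → ℕ}
    (hX : X ∈ tables r c) (hn : 1 ≤ n) (i : Fin m) (hi : 0 < r i) :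
    ∃ j, (r i + n - 1) / n ≤ X i j := by
  by_contra h
  push Not at h
  have h1 : ∑ j, (X i j + 1) ≤ ∑ _j : Fin n, (r i + n - 1) / n := sum_le_sum fun j _ => h j
  rw [sum_add_distrib, (mem_tables.1 hX).1 i] at h1
  simp only [sum_const, card_univ, Fintype.card_fin, smul_eq_mul, mul_one] at h1
  have h2 := Nat.mul_div_le (r i + n - 1) n
  omega

theorem err_step {x d Z Z₁ Z₂ K a η κ : ℝ} (hx : 0 ≤ x) (ha : 0 ≤ a) (hη : 0 ≤ η)
    (hZd : 0 ≤ Z * d) (hκ : κ ≤ 1) (h1 : |x * Z₁ - Z * d| ≤ κ * (Z * d))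
    (h2 : |K * Z₂ - a * Z₁| ≤ η * a * Z₁) :
    |x * K * Z₂ - Z * (d * a)| ≤ (κ + 2 * η) * (Z * (d * a)) := by
  have h3 : x * Z₁ ≤ 2 * (Z * d) := by nlinarith [(abs_le.1 h1).2]
  have h4 : x * K * Z₂ - Z * (d * a) = x * (K * Z₂ - a * Z₁) + a * (x * Z₁ - Z * d) := by ring
  rw [h4]
  refine (abs_add_le _ _).trans ?_
  rw [abs_mul, abs_mul, abs_of_nonneg hx, abs_of_nonneg ha]
  have h5 := mul_le_mul_of_nonneg_left h2 hx
  have h6 := mul_le_mul_of_nonneg_left h1 ha
  have h7 := mul_le_mul_of_nonneg_left h3 (mul_nonneg hη ha)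
  nlinarith

theorem step_law {m n : ℕ} (hm : 1 ≤ m) (hn : 1 ≤ n) {N₀ : ℕ} {Z η τ : ℝ} (hZ : 0 ≤ Z)
    (hτ0 : 0 ≤ τ) (hτ1 : τ ≤ 1) (hη : n * τ ≤ η) {s K B : ℕ} (hK : 0 < K)
    (hs : 2 * (1 / 2 : ℝ) ^ s ≤ τ / 2) (hB : sc m n N₀ s ≤ B) {k : ℕ} (hk : 2 * k * η ≤ 1) {σ : St}
    (hσ : Inv m n N₀ Z η k σ) : 1 - n * (2 * Real.exp (-(K * (τ / 2) ^ 2 / 4))) ≤
      Ex (K * B) fun ρ => ind (Inv m n N₀ Z η (k + 1) (step s K B σ ρ)) := by
  obtain ⟨r, c, hD, hrc, hN, hd, herr⟩ := hσ
  have hm' : (1 : ℝ) ≤ m := by exact_mod_cast hm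
  have hn' : (1 : ℝ) ≤ n := by exact_mod_cast hn
  have hmn : (1 : ℝ) ≤ m * n := by nlinarith
  have hq0 : (0 : ℝ) ≤ 1 - 1 / (m * n) := by
    rw [sub_nonneg]
    exact (div_le_one (by linarith)).2 hmn
  have hq1 : (1 : ℝ) - 1 / (m * n) ≤ 1 := sub_le_self _ (by positivity)
  have hη0 : 0 ≤ η := le_trans (by positivity) hη
  have hZd : 0 ≤ Z * (σ.2.2 : ℝ) := by positivity
  have eN : σ.1.N = ∑ i, r i := by rw [hD]; exact List.sum_ofFn
  have en : σ.1.n = n := by rw [hD]; exact List.length_ofFn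
  by_cases h0 : σ.1.N = 0
  · refine le_trans ?_ (le_Ex (c := 1) fun ρ => (ind_of ?_).ge)
    · exact sub_le_self _ (by positivity)
    · rw [step, if_pos h0]
      refine ⟨r, c, hD, hrc, ?_, hd, herr.trans ?_⟩
      · rw [← eN, h0, Nat.cast_zero]
        positivity
      · push_cast
        gcongr
        linarith
  obtain ⟨i, hi, hr⟩ := amax_spec hm r
  have ei : σ.1.i0 = i := by rw [hD]; exact hi
  have er : σ.1.r σ.1.i0 = r i := by rw [ei, hD]; exact getD_ofFn r i
  have et : thr σ.1 = (r i + n - 1) / n := by rw [thr, er, en]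
  have hsum : ∑ i', r i' ≤ m * r i := by
    simpa using sum_le_card_nsmul univ r (r i) fun i' _ => hr i'
  have hri : 0 < r i := by
    rcases Nat.eq_zero_or_pos (r i) with h | h
    · rw [h] at hsum
      omega
    · exact h
  have hN₀ : ∑ i, r i ≤ N₀ := by
    have h1 : (N₀ : ℝ) * (1 - 1 / (m * n)) ^ k ≤ N₀ :=
      mul_le_of_le_one_right (Nat.cast_nonneg _) (pow_le_one₀ hq0 hq1)
    exact_mod_cast hN.trans h1
  obtain ⟨g, hg, hlaw⟩ := samp_law r c hm hn hrc s
  set t := (r i + n - 1) / n with ht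
  have hZ₁ : (0 : ℝ) < (tables r c).card := by exact_mod_cast card_pos.2 ⟨_, first_mem hrc⟩
  let A : Fin n → Finset (Fin m → Fin n → ℕ) := fun j => (tables r c).filter fun X => t ≤ X i j
  let X : Fin n → List Bool → ℝ := fun j u => ind (g u ∈ A j)
  have key := union_bound (ι := Fin n) (K * B)
    (fun j ρ => K * (τ / 2) < |∑ k ∈ range K, X j (blk B k ρ) - K * Ex B (X j)|)
    (fun ρ => Inv m n N₀ Z η (k + 1) (step s K B σ ρ))
    (fun j => chernoff K B (X j) (fun _ => Lib.PTM.ind_nonneg _) (fun _ => ind_le_one _)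
      (by linarith) (by linarith)) fun ρ hρ => ?_
  · rwa [Fintype.card_fin] at key
  let cnt : Fin n → ℕ := fun j => ∑ k ∈ range K, if t ≤ g (blk B k ρ) i j then 1 else 0
  have ec : cnts σ.1 s K B ρ = List.ofFn cnt := by
    refine List.ext_getElem (by simp [cnts, en]) fun j h1 h2 => ?_
    have h3 : j < n := by simpa using h2
    simp only [cnts, List.getElem_map, List.getElem_range, List.getElem_ofFn, cnt, et, ei]
    rw [hD]
    have h4 : ∀ k, ent (samp (List.ofFn r, List.ofFn c) s (blk B k ρ)) i j =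
        g (blk B k ρ) i ⟨j, h3⟩ := fun k => (hg _).2 i ⟨j, h3⟩
    simp only [h4]
    rfl
  obtain ⟨j, hj, hc⟩ := amax_spec hn cnt
  have hcK : K ≤ n * cnt j := by
    have h1 : ∑ j', cnt j' ≤ n * cnt j := by
      simpa using sum_le_card_nsmul univ cnt (cnt j) fun j' _ => hc j'
    refine le_trans ?_ h1
    rw [sum_comm]
    refine le_trans (by simp) (card_nsmul_le_sum (range K) _ 1 fun k _ => ?_)
    obtain ⟨j', hj'⟩ := exists_ge (hg (blk B k ρ)).1 hn i hri
    refine le_trans (le_of_eq (if_pos hj').symm)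
      (single_le_sum (f := fun j' => if t ≤ g (blk B k ρ) i j' then 1 else 0)
        (fun _ _ => Nat.zero_le _) (mem_univ j'))
  have hc0 : 0 < cnt j := by
    rcases Nat.eq_zero_or_pos (cnt j) with h | h
    · rw [h] at hcK
      omega
    · exact h
  obtain ⟨k', -, hk'⟩ := exists_ne_zero_of_sum_ne_zero hc0.ne'
  have hk'' : t ≤ g (blk B k' ρ) i j := by
    by_contra h
    exact hk' (if_neg h)
  have htr : t ≤ r i := by
    rw [← (mem_tables.1 (hg (blk B k' ρ)).1).1 i]
    exact hk''.trans (single_le_sum (f := g (blk B k' ρ) i) (fun _ _ => Nat.zero_le _) (mem_univ j))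
  have htc : t ≤ c j := by
    rw [← (mem_tables.1 (hg (blk B k' ρ)).1).2 j]
    exact hk''.trans (single_le_sum (f := fun i' => g (blk B k' ρ) i' j) (fun _ _ => Nat.zero_le _)
      (mem_univ i))
  have s1 := sum_low r i htr
  have s2 := sum_low c j htc
  rw [step, if_neg h0, ec, hj, getD_ofFn, et, ei]
  refine ⟨low r i t, low c j t, ?_, by omega, ?_, Nat.mul_pos hd hc0, ?_⟩
  · rw [hD]
    exact Prod.ext (lowL_ofFn r i t) (lowL_ofFn c j t)
  · have h1 : r i ≤ n * t := by
      have h2 := Nat.lt_mul_div_succ (r i + n - 1) (show 0 < n from hn)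
      rw [← ht, mul_add] at h2
      omega
    have h2 : ∑ i', r i' ≤ m * (n * t) := hsum.trans (Nat.mul_le_mul_left m h1)
    have h3 : ((∑ i', r i' : ℕ) : ℝ) * (1 / (m * n)) ≤ t := by
      rw [mul_one_div, div_le_iff₀ (by linarith)]
      have h4 : ((∑ i', r i' : ℕ) : ℝ) ≤ m * (n * t) := by exact_mod_cast h2
      linarith
    have h5 : ((∑ i', low r i t i' : ℕ) : ℝ) + t = (∑ i', r i' : ℕ) := by exact_mod_cast s1
    rw [pow_succ, ← mul_assoc]
    refine le_trans ?_ (mul_le_mul_of_nonneg_right hN hq0)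
    linarith
  · have h1 : ∑ k ∈ range K, X j (blk B k ρ) = cnt j := by
      simp only [cnt, X, A, Nat.cast_sum, mem_filter, fun u => (hg u).1, true_and]
      refine sum_congr rfl fun k _ => ?_
      split_ifs with h
      · rw [ind_of h, Nat.cast_one]
      · rw [ind_of_not h, Nat.cast_zero]
    have h2 := not_lt.1 (hρ j)
    rw [h1] at h2
    have h3 := hlaw B ((sc_mono m n s hN₀).trans hB) (A j) (filter_subset _ _)
    rw [card_low r c i j htr htc] at h3
    have hK' : (0 : ℝ) ≤ K := Nat.cast_nonneg K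
    have h4 : |(K : ℝ) * ((tables (low r i t) (low c j t)).card / (tables r c).card) - cnt j| ≤
        η * cnt j := by
      have h5 := mul_le_mul_of_nonneg_left (h3.trans hs) hK'
      rw [← abs_of_nonneg hK', ← abs_mul, abs_of_nonneg hK', mul_sub] at h5
      have h6 : (K : ℝ) ≤ n * cnt j := by exact_mod_cast hcK
      have h7 := mul_le_mul_of_nonneg_right h6 hτ0
      have h8 := mul_le_mul_of_nonneg_right hη (Nat.cast_nonneg (α := ℝ) (cnt j))
      have h9 := abs_le.1 h5
      have h10 := abs_le.1 h2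
      change _ ≤ _ ∧ (K : ℝ) * Ex B (X j) - _ ≤ _ at h9
      change _ ≤ (K : ℝ) * Ex B (X j) - _ ∧ _ at h9
      rw [abs_le]
      constructor <;> nlinarith [h9.1, h9.2, h10.1, h10.2]
    have h11 : |(K : ℝ) * (tables (low r i t) (low c j t)).card - cnt j * (tables r c).card| ≤
        η * cnt j * (tables r c).card := by
      have h12 := mul_le_mul_of_nonneg_right h4 hZ₁.le
      rw [← abs_of_pos hZ₁, ← abs_mul, abs_of_pos hZ₁, sub_mul, mul_assoc,
        div_mul_cancel₀ _ hZ₁.ne'] at h12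
      exact h12
    have h13 := err_step (Nat.cast_nonneg σ.2.1) (Nat.cast_nonneg (cnt j)) hη0 hZd hk herr h11
    push_cast
    refine h13.trans (le_of_eq ?_)
    ring

/-- The number of rounds. -/
def rounds (D : Dat) : ℕ := D.m * D.n * D.N.size

/-- The inverse accuracy of one frequency. -/
def acc (D : Dat) (e : ℕ) : ℕ := 4 * e * (rounds D + 1) * D.n

/-- The number of samples in one round. -/
def smp (D : Dat) (e l : ℕ) : ℕ := 16 * acc D e ^ 2 * (l + acc D e)

/-- The number of coins of one sample. -/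
def scs (D : Dat) (e : ℕ) : ℕ := sc D.m D.n D.N (acc D e + 2)

/-- The state after the rounds in the list `L`. -/
def state (D : Dat) (e l : ℕ) (L : List ℕ) (ρ : List Bool) : St :=
  runL (smp D e l * scs D e) (fun _ => step (acc D e + 2) (smp D e l) (scs D e)) L (D, 1, 1) ρ

/-- The nearest integer to a fraction. -/
def rnd (p : ℕ × ℕ) : ℕ := (2 * p.1 + p.2) / (2 * p.2)

/-- The output. -/
def count (D : Dat) (e l : ℕ) (ρ : List Bool) : ℕ := rnd (state D e l (List.range (rounds D)) ρ).2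

theorem rnd_spec {p : ℕ × ℕ} (hp : 0 < p.2) (Z : ℕ) {κ : ℝ}
    (h : |(p.1 : ℝ) - Z * p.2| ≤ κ * p.2) : |(rnd p : ℝ) - Z| ≤ 2 * κ := by
  have hq : (0 : ℝ) < p.2 := by exact_mod_cast hp
  have h1 : ((2 * p.2 * rnd p : ℕ) : ℝ) ≤ (2 * p.1 + p.2 : ℕ) :=
    Nat.cast_le.2 (Nat.mul_div_le _ _)
  have h2 : ((2 * p.1 + p.2 : ℕ) : ℝ) < (2 * p.2 * (rnd p + 1) : ℕ) :=
    Nat.cast_lt.2 (Nat.lt_mul_div_succ _ (by omega))
  push_cast at h1 h2
  have h3 := abs_le.1 h
  have hκ : 0 ≤ κ := by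
    have := (abs_nonneg _).trans h
    exact nonneg_of_mul_nonneg_left this hq
  rcases lt_trichotomy (rnd p) Z with h4 | h4 | h4
  · have h5 : (rnd p : ℝ) + 1 ≤ Z := by exact_mod_cast h4
    rw [abs_of_nonpos (by linarith)]
    refine le_of_mul_le_mul_right ?_ hq
    nlinarith [h3.1]
  · rw [h4, sub_self, abs_zero]
    linarith
  · have h5 : (Z : ℝ) + 1 ≤ rnd p := by exact_mod_cast h4
    rw [abs_of_nonneg (by linarith)]
    refine le_of_mul_le_mul_right ?_ hq
    nlinarith [h3.2]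

theorem exp_neg_le (k : ℕ) : Real.exp (-(k : ℝ)) ≤ (1 / 2) ^ k := by
  rw [show -(k : ℝ) = k * (-1) by ring, Real.exp_nat_mul]
  refine pow_le_pow_left₀ (Real.exp_pos _).le ?_ k
  rw [Real.exp_neg, one_div]
  exact inv_anti₀ two_pos (by linarith [Real.add_one_le_exp (1 : ℝ)])

theorem count_law {m n : ℕ} (r : Fin m → ℕ) (c : Fin n → ℕ) (hm : 1 ≤ m) (hn : 1 ≤ n)
    (hrc : ∑ i, r i = ∑ j, c j) {e : ℕ} (he : 0 < e) (l : ℕ) {D : Dat}
    (hD : D = (List.ofFn r, List.ofFn c)) {T : ℕ} (hT : rounds D * (smp D e l * scs D e) ≤ T) :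
    1 - (1 / 2 : ℝ) ^ l ≤ Ex T fun ρ =>
      ind (|(count D e l ρ : ℝ) - (tables r c).card| ≤ (tables r c).card / e) := by
  have em : D.m = m := by rw [hD]; exact List.length_ofFn
  have en : D.n = n := by rw [hD]; exact List.length_ofFn
  have eN : D.N = ∑ i, r i := by rw [hD]; exact List.sum_ofFn
  have hm' : (1 : ℝ) ≤ m := by exact_mod_cast hm
  have hn' : (1 : ℝ) ≤ n := by exact_mod_cast hn
  have he' : (1 : ℝ) ≤ e := by exact_mod_cast he
  have hR : (0 : ℝ) ≤ rounds D := Nat.cast_nonneg _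
  have hW : (acc D e : ℝ) = 4 * e * (rounds D + 1) * n := by
    rw [acc, en]
    push_cast
    rfl
  have hW1 : 4 * (rounds D + 1) * (n : ℝ) ≤ acc D e := by
    rw [hW]
    have : (0 : ℝ) ≤ (rounds D + 1) * n := by positivity
    nlinarith
  have hW2 : (1 : ℝ) ≤ acc D e := by nlinarith
  have hW3 : (acc D e : ℝ) ≤ 2 ^ acc D e := by exact_mod_cast Nat.lt_two_pow_self.le
  have hW4 : 0 < acc D e := by exact_mod_cast lt_of_lt_of_le one_pos hW2
  set η : ℝ := 1 / (4 * e * (rounds D + 1)) with hη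
  have hη0 : 0 ≤ η := by positivity
  have hη1 : 4 * e * (rounds D * η) ≤ 1 := by
    rw [hη, mul_one_div, ← mul_div_assoc, div_le_one (by positivity)]
    nlinarith
  have hη2 : 0 ≤ rounds D * η := by positivity
  have h1 := runL_good (B := smp D e l * scs D e)
    (step := fun _ : ℕ => step (acc D e + 2) (smp D e l) (scs D e))
    (I := Inv m n D.N (tables r c).card η) (T := rounds D)
    (p := n * (2 * Real.exp (-(smp D e l * ((1 / (acc D e : ℝ)) / 2) ^ 2 / 4)))) (by positivity)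
    (fun _ k hk σ hσ => step_law hm hn (Nat.cast_nonneg _) (by positivity)
      ((div_le_one (by linarith)).2 hW2) (by rw [hW, hη]; field_simp; rfl)
      (by unfold smp; positivity) (by
        rw [pow_add, one_div_pow, div_div, div_mul_eq_mul_div, ← mul_div_assoc,
          div_le_div_iff₀ (by positivity) (by positivity)]
        linarith) (by rw [scs, em, en]) (by
        have h2 : (k : ℝ) ≤ rounds D := by exact_mod_cast hk.le
        have h3 := mul_le_mul_of_nonneg_right h2 hη0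
        nlinarith) hσ) (List.range (rounds D)) (k := 0) (by simp) (s := (D, 1, 1))
    ⟨r, c, hD, hrc, by rw [eN]; simp, one_pos, by simp⟩ (m := T) (by simpa using hT)
  rw [List.length_range, zero_add] at h1
  refine le_trans (le_trans ?_ h1) (Ex_mono fun ρ _ => ind_mono fun h => ?_)
  · have h2 : (smp D e l : ℝ) * ((1 / (acc D e : ℝ)) / 2) ^ 2 / 4 = ((l + acc D e : ℕ) : ℝ) := by
      rw [smp]
      push_cast
      field_simp
      ring
    rw [h2]
    have h3 := exp_neg_le (l + acc D e)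
    rw [pow_add, one_div_pow (2 : ℝ) (acc D e), mul_one_div, le_div_iff₀ (by positivity)] at h3
    have h4 := Real.exp_pos (-((l + acc D e : ℕ) : ℝ))
    have h5 : 2 * (rounds D * (n : ℝ)) ≤ 2 ^ acc D e := by nlinarith
    nlinarith [mul_le_mul_of_nonneg_left h5 h4.le]
  · obtain ⟨r', c', -, hrc', hN, hd, herr⟩ := h
    have h2 : ∑ i, r' i = 0 := by
      have h3 : (1 : ℝ) ≤ m * n := by nlinarith
      have h4 : (1 - 1 / (m * n : ℝ)) ^ (m * n) ≤ 1 / 2 := by
        have h5 := Real.one_sub_div_pow_le_exp_neg (n := m * n) (t := 1) (by exact_mod_cast h3)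
        have h6 := exp_neg_le 1
        push_cast at h5 h6
        linarith
      have h7 : (0 : ℝ) ≤ 1 - 1 / (m * n) := by
        rw [sub_nonneg]
        exact (div_le_one (by linarith)).2 h3
      have h8 := pow_le_pow_left₀ (pow_nonneg h7 _) h4 D.N.size
      rw [← pow_mul, show m * n * D.N.size = rounds D by rw [rounds, em, en]] at h8
      have h9 : (D.N : ℝ) < 2 ^ D.N.size := by exact_mod_cast Nat.lt_size_self D.N
      have h10 : (D.N : ℝ) * (1 / 2) ^ D.N.size < 1 := by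
        rw [one_div_pow, mul_one_div, div_lt_one (by positivity)]
        exact h9
      have h11 := (hN.trans (mul_le_mul_of_nonneg_left h8 (Nat.cast_nonneg _))).trans_lt h10
      exact Nat.lt_one_iff.1 (by exact_mod_cast h11)
    rw [card_of_sum_eq_zero hrc' h2, Nat.cast_one, mul_one, ← mul_assoc] at herr
    refine (rnd_spec hd _ herr).trans ?_
    rw [le_div_iff₀ (by linarith)]
    nlinarith [mul_le_mul_of_nonneg_right hη1 (Nat.cast_nonneg (α := ℝ) (tables r c).card)]

end Vale.Agent.P328F
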