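import Vale.Agent.P328F.Poly

/-!
The approximation scheme as a probabilistic Turing machine.
-/

namespace Vale.Agent.P328F

open Finset hiding val
open Vale.Agent.P328 Vale.Agent.Lib.PTM Vale.Agent.Lib.PolyTime

/-- Inputs of the machine. -/
abbrev Inq : Type := List ℕ × List ℕ × (ℕ × ℕ) × ℕ × ℕ

/-- The input as a tuple. -/
def inq {m n : ℕ} (r : Fin m → ℕ) (c : Fin n → ℕ) (ε δ : ℚ) : Inq :=
  (List.ofFn r, List.ofFn c, (ε.num.natAbs, ε.den), δ.num.natAbs, δ.den)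

theorem code_inq {m n : ℕ} (r : Fin m → ℕ) (c : Fin n → ℕ) (ε δ : ℚ) :
    pair (vec r) (pair (vec c) (pair (rat ε) (rat δ))) = enc (inq r c ε δ) := by
  rw [rat, rat, pair_eq, pair_eq, pair_eq, pair_eq, pair_eq, vec_eq, vec_eq]
  rfl

/-- The accuracy parameter. -/
def eP (x : Inq) : ℕ := x.2.2.1.2 / x.2.2.1.1 + 1

/-- The confidence parameter. -/
def lP (x : Inq) : ℕ := Nat.size (x.2.2.2.2 / x.2.2.2.1)

/-- The base of the number of coins. -/
def uP (x : Inq) : ℕ := esize x + eP x + lP x + 2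

theorem pt_eP : PT ∅ eP :=
  PT.add (PT.div PT.snd'.snd.fst.snd PT.snd'.snd.fst.fst) (PT.const 1)

theorem pt_lP : PT ∅ lP := PT.natSize (PT.div PT.snd'.snd.snd.snd PT.snd'.snd.snd.fst)

theorem pt_uP : PT ∅ uP := PT.add (PT.add (PT.add PT.id.size pt_eP) pt_lP) (PT.const 2)

theorem inv_cast {q : ℚ} (h : 0 < q) : 1 / (q : ℝ) = (q.den : ℝ) / (q.num.natAbs : ℕ) := by
  rw [num_cast h, Rat.cast_def, one_div_div]

theorem one_lt_inv {q : ℚ} (h : 0 < q) (h1 : q < 1) : 1 < 1 / (q : ℝ) :=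
  one_lt_one_div (by exact_mod_cast h) (by exact_mod_cast h1)

theorem div_pos' {q : ℚ} (h : 0 < q) (h1 : q < 1) : 0 < q.den / q.num.natAbs := by
  have h2 := one_lt_inv h h1
  rw [inv_cast h, one_lt_div (by exact_mod_cast num_pos h)] at h2
  exact Nat.div_pos (by exact_mod_cast h2.le) (num_pos h)

theorem lt_div_succ {q : ℚ} (h : 0 < q) : 1 / (q : ℝ) < (q.den / q.num.natAbs + 1 : ℕ) := by
  rw [inv_cast h, div_lt_iff₀ (by exact_mod_cast num_pos h)]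
  rw [mul_comm]
  exact_mod_cast Nat.lt_mul_div_succ q.den (num_pos h)

theorem div_le' {q : ℚ} (h : 0 < q) : ((q.den / q.num.natAbs : ℕ) : ℝ) ≤ 1 / (q : ℝ) := by
  rw [inv_cast h]
  exact Nat.cast_div_le

section

variable {m n : ℕ} (r : Fin m → ℕ) (c : Fin n → ℕ) {ε δ : ℚ} (h1 : 0 < ε) (h2 : ε < 1)
  (h3 : 0 < δ) (h4 : δ < 1)

include h1 in
theorem eP_ok : 1 / (eP (inq r c ε δ) : ℝ) ≤ ε := by
  have h : (0 : ℝ) < ε := by exact_mod_cast h1
  exact (one_div_le h (lt_trans (by positivity) (lt_div_succ h1))).1 (lt_div_succ h1).le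

include h3 in
theorem lP_ok : (1 / 2 : ℝ) ^ lP (inq r c ε δ) ≤ δ := by
  have h : (0 : ℝ) < δ := by exact_mod_cast h3
  have h5 : ((δ.den / δ.num.natAbs + 1 : ℕ) : ℝ) ≤ 2 ^ lP (inq r c ε δ) := by
    exact_mod_cast Nat.lt_size_self _
  rw [one_div_pow]
  exact (one_div_le h (by positivity)).1 ((lt_div_succ h3).le.trans h5)

include h1 h2 h3 h4 in
theorem uP_le (hm : 1 ≤ m) (hn : 1 ≤ n) {μ : ℝ} (hμ : μ = m + n + ∑ i, Real.logb 2 (r i + 2) +
      ∑ j, Real.logb 2 (c j + 2) + 1 / (ε : ℝ) + Real.logb 2 (1 / (δ : ℝ)) + Real.logb 2 ε.num +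
        Real.logb 2 δ.num) : (uP (inq r c ε δ) : ℝ) ≤ μ ^ 3 := by
  have a1 := one_lt_inv h1 h2
  have a2 : 0 < Real.logb 2 (1 / (δ : ℝ)) := Real.logb_pos one_lt_two (one_lt_inv h3 h4)
  have a3 : (1 : ℝ) ≤ ε.num := by exact_mod_cast Rat.num_pos.2 h1
  have a4 : (1 : ℝ) ≤ δ.num := by exact_mod_cast Rat.num_pos.2 h3
  have a5 := Real.logb_nonneg one_lt_two a3
  have a5' := Real.logb_nonneg one_lt_two a4
  have a6 : (m : ℝ) ≤ ∑ i, Real.logb 2 (r i + 2) := by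
    simpa using Finset.sum_le_sum (s := (univ : Finset (Fin m))) fun i _ => one_le_logb (r i)
  have a7 : (n : ℝ) ≤ ∑ j, Real.logb 2 (c j + 2) := by
    simpa using Finset.sum_le_sum (s := (univ : Finset (Fin n))) fun j _ => one_le_logb (c j)
  have a8 : ((∑ i, (r i).size : ℕ) : ℝ) ≤ 2 * ∑ i, Real.logb 2 (r i + 2) := by
    rw [Nat.cast_sum, Finset.mul_sum]
    exact Finset.sum_le_sum fun i _ => size_le_two _
  have a9 : ((∑ j, (c j).size : ℕ) : ℝ) ≤ 2 * ∑ j, Real.logb 2 (c j + 2) := by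
    rw [Nat.cast_sum, Finset.mul_sum]
    exact Finset.sum_le_sum fun j _ => size_le_two _
  have a10 : Real.logb 2 (1 / (ε : ℝ)) ≤ 1 / (ε : ℝ) := by
    rw [Real.logb_le_iff_le_rpow one_lt_two (by linarith)]
    have := one_add_mul_self_le_rpow_one_add (s := 1) (by norm_num) a1.le
    norm_num at this ⊢
    linarith
  have b1 : (1 : ℝ) ≤ m := by exact_mod_cast hm
  have b2 : (1 : ℝ) ≤ n := by exact_mod_cast hn
  have b3 : (eP (inq r c ε δ) : ℝ) ≤ 1 / (ε : ℝ) + 1 := by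
    have := div_le' h1
    rw [eP, Nat.cast_add, Nat.cast_one]
    exact add_le_add_left this 1
  have b4 : (lP (inq r c ε δ) : ℝ) ≤ Real.logb 2 (1 / (δ : ℝ)) + 1 :=
    (size_le_logb (div_pos' h3 h4)).trans (add_le_add_left (Real.logb_le_logb_of_le one_lt_two
      (by exact_mod_cast div_pos' h3 h4) (div_le' h3)) 1)
  have c2 := size_le_logb (num_pos h1)
  have c3 := size_le_logb (num_pos h3)
  have c4 := size_den h1
  have c5 := size_den h3
  rw [num_cast h1] at c2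
  rw [num_cast h3] at c3
  have c6 : esize (inq r c ε δ) = 4 * ∑ i, (r i).size + 2 * m + 4 * ∑ j, (c j).size + 2 * n +
      4 * ε.num.natAbs.size + 2 * ε.den.size + 2 * δ.num.natAbs.size + δ.den.size + 6 := by
    simp only [inq, esize_pair, esize_ofFn, esize_nat]
    ring
  rw [uP, c6]
  generalize ∑ i, (r i).size = R at *
  generalize ∑ j, (c j).size = C at *
  push_cast
  have d1 : 5 ≤ μ := by linarith
  have d2 : 25 * μ ≤ μ ^ 3 := by
    nlinarith [mul_le_mul d1 d1 (by norm_num) (by linarith)]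
  linarith

end

theorem exists_coins : ∃ d : ℕ, 0 < d ∧ ∀ x : Inq, rounds (x.1, x.2.1) *
    (smp (x.1, x.2.1) (eP x) (lP x) * scs (x.1, x.2.1) (eP x)) ≤ uP x ^ d := by
  have hD : PT ∅ fun y : Dat × Un × Un => y.1 := PT.fst'
  have he : PBd fun y : Dat × Un × Un => y.2.1.v := PBd.unVal (A := ∅) PT.snd'.fst
  have hl : PBd fun y : Dat × Un × Un => y.2.2.v := PBd.unVal (A := ∅) PT.snd'.snd
  obtain ⟨d, hd⟩ := (pb_rounds hD).mul ((pb_smp hD he hl).mul (pb_scs hD he))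
  refine ⟨2 * d + 1, Nat.succ_pos _, fun x => (hd ((x.1, x.2.1), ⟨eP x⟩, ⟨lP x⟩)).trans ?_⟩
  have h1 : 2 ≤ uP x := Nat.le_add_left _ _
  refine le_trans ?_ (Nat.pow_le_pow_right (by omega) (Nat.le_succ _))
  rw [pow_mul]
  refine Nat.pow_le_pow_left (le_trans ?_ (show 2 * uP x ≤ uP x ^ 2 by nlinarith)) d
  obtain ⟨a, b, y⟩ := x
  simp only [uP, esize_pair, esize_un]
  omega

/-- **The approximation scheme.** -/
theorem fpras : ∃ (M : Machine) (d : ℕ), ∀ (m n : ℕ) (r : Fin m → ℕ) (c : Fin n → ℕ),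
    1 ≤ m → 1 ≤ n → ∑ i, r i = ∑ j, c j → ∀ ε δ : ℚ, 0 < ε → ε < 1 → 0 < δ → δ < 1 →
      ∀ (L : ℝ) (T : ℕ), L = m + n + ∑ i, Real.logb 2 (r i + 2) + ∑ j, Real.logb 2 (c j + 2) →
      (L + 1 / (ε : ℝ) + Real.logb 2 (1 / (δ : ℝ)) + Real.logb 2 ε.num + Real.logb 2 δ.num) ^ d ≤
        T →
      ∀ out : (Fin T → Bool) → M.Cfg,
        (∀ ρ, out ρ = M.run (pair (vec r) (pair (vec c) (pair (rat ε) (rat δ)))) (List.ofFn ρ)) →
        (∀ ρ, (out ρ).l = none ∧ ∃ a : ℕ, (out ρ).stk 0 = a.bits) ∧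
        (1 - δ : ℝ) ≤ (Nat.card {ρ // ∃ a : ℕ, (out ρ).stk 0 = a.bits ∧
          (1 - ε : ℝ) * (tables r c).card ≤ a ∧ (a : ℝ) ≤ (1 + ε) * (tables r c).card} : ℝ) /
            2 ^ T := by
  obtain ⟨d, hd0, hd⟩ := exists_coins
  have hun : ∀ {g : Inq → ℕ}, PT ∅ g → (PT ∅ fun s : Inq × List Bool => min (g s.1) s.2.length) ∧
      PBd fun s : Inq × List Bool => min (g s.1) s.2.length := fun hg =>
    ⟨PT.min (hg.comp PT.fst') (PT.length PT.snd'),
      (PBd.length (A := ∅) PT.snd').mono fun _ => min_le_right _ _⟩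
  have hF : PT ∅ fun s : Inq × List Bool =>
      count (s.1.1, s.1.2.1) (min (eP s.1) s.2.length) (min (lP s.1) s.2.length) s.2 :=
    pt_count (PT.fst'.fst.pair PT.fst'.snd.fst) (hun pt_eP).1 (hun pt_eP).2 (hun pt_lP).1
      (hun pt_lP).2 PT.snd'
  obtain ⟨M, d', HM⟩ := exists_machine (PT.powConst pt_uP d) hF
  refine ⟨M, 3 * ((d + 1) * d'), fun m n r c hm hn hrc ε δ h1 h2 h3 h4 L T hL hT out hout => ?_⟩
  have b1 := uP_le r c h1 h2 h3 h4 hm hn (μ := L + 1 / (ε : ℝ) + Real.logb 2 (1 / (δ : ℝ)) +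
    Real.logb 2 ε.num + Real.logb 2 δ.num) (by rw [hL])
  have b2 : uP (inq r c ε δ) ^ ((d + 1) * d') ≤ T := by
    rw [pow_mul] at hT
    exact_mod_cast (pow_le_pow_left₀ (Nat.cast_nonneg _) b1 _).trans hT
  have b3 : uP (inq r c ε δ) ≤ uP (inq r c ε δ) ^ d := Nat.le_self_pow hd0.ne' _
  have b4 : esize (inq r c ε δ) + eP (inq r c ε δ) + lP (inq r c ε δ) + 2 = uP (inq r c ε δ) := rfl
  obtain ⟨h5, h6⟩ := HM (inq r c ε δ) T (le_trans (by
    rw [pow_mul, pow_succ]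
    refine Nat.pow_le_pow_left (le_trans ?_ (Nat.mul_le_mul_left _
      (show 2 ≤ uP (inq r c ε δ) from Nat.le_add_left _ _))) d'
    omega) b2)
  simp only [code_inq] at hout
  simp only [hout]
  refine ⟨fun ρ => ⟨h5 ρ, ?_⟩, ?_⟩
  · refine all_of_frq (P := fun ρ => ∃ a : ℕ, (M.run (enc (inq r c ε δ)) ρ).stk 0 = a.bits) ?_ ρ
    rw [h6 fun w => ∃ a : ℕ, w = a.bits, frq_congr (Q := fun _ => True)
      fun ρ _ => iff_true_intro ⟨_, rfl⟩, frq_const, ind, if_pos trivial]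
  · rw [frq_eq T fun ρ => ∃ a : ℕ, (M.run (enc (inq r c ε δ)) ρ).stk 0 = a.bits ∧
        (1 - ε : ℝ) * (tables r c).card ≤ a ∧ (a : ℝ) ≤ (1 + ε) * (tables r c).card,
      mul_div_cancel_right₀ _ (by positivity), h6 fun w => ∃ a : ℕ, w = a.bits ∧
        (1 - ε : ℝ) * (tables r c).card ≤ a ∧ (a : ℝ) ≤ (1 + ε) * (tables r c).card]
    have h7 := count_law r c hm hn hrc (e := eP (inq r c ε δ)) (Nat.succ_pos _) (lP (inq r c ε δ))
      rfl (hd (inq r c ε δ))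
    rw [← frq_eq_Ex] at h7
    refine le_trans ?_ (h7.trans (frq_mono fun ρ hρ h => ?_))
    · linarith [lP_ok r c (ε := ε) h3]
    · have h8 := mul_le_mul_of_nonneg_left (eP_ok r c (δ := δ) h1)
        (Nat.cast_nonneg (tables r c).card)
      rw [mul_one_div] at h8
      rw [abs_le] at h
      refine ⟨_, rfl, ?_⟩
      dsimp only
      rw [min_eq_left (by omega), min_eq_left (by omega)]
      change _ ≤ ((count (List.ofFn r, List.ofFn c) _ _ ρ : ℕ) : ℝ) ∧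
        ((count (List.ofFn r, List.ofFn c) _ _ ρ : ℕ) : ℝ) ≤ _
      exact ⟨by linarith [h.1], by linarith [h.2]⟩

end Vale.Agent.P328F
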