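import Vale.Agent.P328F.Alg

/-!
The counting algorithm runs in polynomial time.
-/

namespace Vale.Agent.P328F

open Finset hiding val
open Vale.Agent.P328 Vale.Agent.Lib.PTM Vale.Agent.Lib.PolyTime

theorem esize_lowL (l : List ℕ) (i t : ℕ) : esize (lowL l i t) ≤ esize l := by
  have h1 : l = (List.range l.length).map fun i' => l.getD i' 0 :=
    List.ext_getElem (by simp) fun i' h1 _ => by simp [List.getD_eq_getElem?_getD, h1]
  conv_rhs => rw [h1]
  rw [lowL, esize_list, esize_list, List.map_map, List.map_map]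
  refine List.sum_le_sum fun i' _ => ?_
  have := esize_nat_mono (Nat.sub_le (l.getD i' 0) (if i' = i then t else 0))
  simp only [Function.comp]
  omega

theorem cnts_le (D : Dat) (s K B : ℕ) (ρ : List Bool) (j : ℕ) : (cnts D s K B ρ).getD j 0 ≤ K := by
  rw [List.getD_eq_getElem?_getD]
  cases h : (cnts D s K B ρ)[j]? with
  | none => exact Nat.zero_le _
  | some v =>
    obtain ⟨j', -, rfl⟩ := List.mem_map.1 (List.mem_of_getElem? h)
    refine (List.sum_le_card_nsmul _ 1 fun x hx => ?_).trans (by simp)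
    obtain ⟨k, -, rfl⟩ := List.mem_map.1 hx
    split_ifs <;> omega

theorem esize_step (s K B : ℕ) (σ : St) (ρ : List Bool) :
    esize (step s K B σ ρ) ≤ esize σ + 3 * esize K := by
  obtain ⟨⟨a, b⟩, x, y⟩ := σ
  unfold step
  split_ifs
  · omega
  · have h1 := esize_lowL a (Dat.i0 (a, b)) (thr (a, b))
    have h2 := esize_lowL b (amax (cnts (a, b) s K B ρ)) (thr (a, b))
    have h3 := esize_nat_mul_le x K
    have h4 := esize_nat_mul_le y ((cnts (a, b) s K B ρ).getD (amax (cnts (a, b) s K B ρ)) 0)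
    have h5 := esize_nat_mono (cnts_le (a, b) s K B ρ (amax (cnts (a, b) s K B ρ)))
    simp only [esize_pair]
    omega

theorem runL_le {γ S : Type} {B : ℕ} {st : γ → S → List Bool → S} {φ : S → ℕ} {c : ℕ}
    (h : ∀ x s ρ, φ (st x s ρ) ≤ φ s + c) (l : List γ) (s : S) (ρ : List Bool) :
    φ (runL B st l s ρ) ≤ φ s + l.length * c := by
  induction l generalizing s ρ with
  | nil => simp [runL]
  | cons x l ih =>
    have h1 := ih (st x s (ρ.take B)) (ρ.drop B)
    have h2 := h x s (ρ.take B)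
    rw [runL, List.length_cons, add_mul]
    omega

variable {α : Type} [Enc α]

theorem pt_lowL {l : α → List ℕ} {i t : α → ℕ} (hl : PT ∅ l) (hi : PT ∅ i) (ht : PT ∅ t) :
    PT ∅ fun a => lowL (l a) (i a) (t a) :=
  PT.map (f := fun a i' => (l a).getD i' 0 - if i' = i a then t a else 0)
    (PT.range hl.length (PBd.length hl)) (PT.sub (PT.getD (hl.comp PT.fst') PT.snd' (PT.const 0))
      (PT.ite (PT.eqNat PT.snd' (hi.comp PT.fst')) (ht.comp PT.fst') (PT.const 0)))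

section

variable {D : α → Dat} (hD : PT ∅ D)
include hD

theorem pt_sc {s : α → ℕ} (hs : PT ∅ s) : PT ∅ fun a => sc (D a).m (D a).n (D a).N (s a) :=
  PT.mul (PT.mul (PT.const 16) (PT.add hs (PT.const 1))) (Dat.pt_tcoins hD (Dat.pt_gsteps hD hs))

theorem pb_sc {s : α → ℕ} (hs : PBd s) : PBd fun a => sc (D a).m (D a).n (D a).N (s a) :=
  ((PBd.const 16).mul (hs.add (PBd.const 1))).mul (Dat.pb_tcoins hD (Dat.pb_gsteps hD hs))

theorem pt_samp {s : α → ℕ} {ρ : α → List Bool} (hs : PT ∅ s) (hs' : PBd s) (hρ : PT ∅ ρ) :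
    PT ∅ fun a => samp (D a) (s a) (ρ a) :=
  Dat.pt_output hD hs hs' (PT.take hρ (pt_sc hD hs))

theorem pt_thr : PT ∅ fun a => thr (D a) :=
  PT.div (PT.sub (PT.add (Dat.pt_r hD (Dat.pt_i0 hD)) (Dat.pt_n hD)) (PT.const 1)) (Dat.pt_n hD)

theorem pt_cnts {s K B : α → ℕ} {ρ : α → List Bool} (hs : PT ∅ s) (hs' : PBd s) (hK : PT ∅ K)
    (hK' : PBd K) (hB : PT ∅ B) (hρ : PT ∅ ρ) :
    PT ∅ fun a => cnts (D a) (s a) (K a) (B a) (ρ a) := by
  have k : PT ∅ fun p : (α × ℕ) × ℕ => p.1.1 := PT.fst'.fst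
  exact PT.map (f := fun a j => sumR (K a) fun k =>
      if thr (D a) ≤ ent (samp (D a) (s a) (blk (B a) k (ρ a))) (D a).i0 j then 1 else 0)
    (PT.range (Dat.pt_n hD) (Dat.pb_n hD)) (pt_sumR (F := fun (p : α × ℕ) k =>
      if thr (D p.1) ≤ ent (samp (D p.1) (s p.1) (blk (B p.1) k (ρ p.1))) (D p.1).i0 p.2 then 1
        else 0) (hK.comp PT.fst') (hK'.comp (PT.fst' (A := ∅)))
      (PT.ite (PT.le (pt_thr (hD.comp k)) (pt_ent (pt_samp (hD.comp k) (hs.comp k) (hs'.comp k)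
        (pt_blk (hB.comp k) PT.snd' (hρ.comp k))) (Dat.pt_i0 (hD.comp k)) PT.fst'.snd))
        (PT.const 1) (PT.const 0)))

theorem pt_rounds : PT ∅ fun a => rounds (D a) :=
  PT.mul (PT.mul (Dat.pt_m hD) (Dat.pt_n hD)) (Dat.pt_N hD).natSize

theorem pb_rounds : PBd fun a => rounds (D a) :=
  ((Dat.pb_m hD).mul (Dat.pb_n hD)).mul ((Dat.pt_N hD).pbd.mono fun _ => (esize_nat _).ge)

theorem pt_acc {e : α → ℕ} (he : PT ∅ e) : PT ∅ fun a => acc (D a) (e a) :=
  PT.mul (PT.mul (PT.mul (PT.const 4) he) (PT.add (pt_rounds hD) (PT.const 1))) (Dat.pt_n hD)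

theorem pb_acc {e : α → ℕ} (he : PBd e) : PBd fun a => acc (D a) (e a) :=
  (((PBd.const 4).mul he).mul ((pb_rounds hD).add (PBd.const 1))).mul (Dat.pb_n hD)

theorem pt_smp {e l : α → ℕ} (he : PT ∅ e) (hl : PT ∅ l) : PT ∅ fun a => smp (D a) (e a) (l a) :=
  PT.mul (PT.mul (PT.const 16) (PT.powConst (pt_acc hD he) 2)) (PT.add hl (pt_acc hD he))

theorem pb_smp {e l : α → ℕ} (he : PBd e) (hl : PBd l) : PBd fun a => smp (D a) (e a) (l a) :=
  ((PBd.const 16).mul ((pb_acc hD he).pow 2)).mul (hl.add (pb_acc hD he))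

theorem pt_scs {e : α → ℕ} (he : PT ∅ e) : PT ∅ fun a => scs (D a) (e a) :=
  pt_sc hD (PT.add (pt_acc hD he) (PT.const 2))

theorem pb_scs {e : α → ℕ} (he : PBd e) : PBd fun a => scs (D a) (e a) :=
  pb_sc hD ((pb_acc hD he).add (PBd.const 2))

end

theorem pt_step {s K B : α → ℕ} {σ : α → St} {ρ : α → List Bool} (hs : PT ∅ s) (hs' : PBd s)
    (hK : PT ∅ K) (hK' : PBd K) (hB : PT ∅ B) (hσ : PT ∅ σ) (hρ : PT ∅ ρ) :
    PT ∅ fun a => step (s a) (K a) (B a) (σ a) (ρ a) := by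
  have h1 := pt_cnts hσ.fst hs hs' hK hK' hB hρ
  exact PT.ite (PT.eqNat (Dat.pt_N hσ.fst) (PT.const 0)) hσ
    (((pt_lowL hσ.fst.fst (Dat.pt_i0 hσ.fst) (pt_thr hσ.fst)).pair
      (pt_lowL hσ.fst.snd (pt_amax h1) (pt_thr hσ.fst))).pair
      ((PT.mul hσ.snd.fst hK).pair (PT.mul hσ.snd.snd (PT.getD h1 (pt_amax h1) (PT.const 0)))))

theorem pt_count {D : α → Dat} {e l : α → ℕ} {ρ : α → List Bool} (hD : PT ∅ D) (he : PT ∅ e)
    (he' : PBd e) (hl : PT ∅ l) (hl' : PBd l) (hρ : PT ∅ ρ) :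
    PT ∅ fun a => count (D a) (e a) (l a) (ρ a) := by
  have k : PT ∅ fun p : α × ℕ × St × List Bool => p.1 := PT.fst'
  have h0 : PT ∅ fun a => ((D a, 1, 1) : St) := hD.pair (PT.const _)
  have h1 : PT ∅ fun a => state (D a) (e a) (l a) (List.range (rounds (D a))) (ρ a) := by
    refine PT.runL (step := fun a (_ : ℕ) => step (acc (D a) (e a) + 2) (smp (D a) (e a) (l a))
      (scs (D a) (e a))) (PT.mul (pt_smp hD he hl) (pt_scs hD he))
      (pt_step (PT.add (pt_acc (hD.comp k) (he.comp k)) (PT.const 2))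
        ((pb_acc (hD.comp k) (he'.comp k)).add (PBd.const 2))
        (pt_smp (hD.comp k) (he.comp k) (hl.comp k)) (pb_smp (hD.comp k) (he'.comp k) (hl'.comp k))
        (pt_scs (hD.comp k) (he.comp k)) PT.snd'.snd.fst PT.snd'.snd.snd)
      (PT.range (pt_rounds hD) (pb_rounds hD)) h0 hρ
      (h0.pbd.add ((pb_rounds hD).mul ((PBd.const 3).mul (pt_smp hD he hl).pbd))) fun a i => ?_
    refine (runL_le (φ := esize) (fun _ => esize_step _ _ _) _ _ _).trans ?_
    have h2 : ((List.range (rounds (D a))).take i).length ≤ rounds (D a) := by simp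
    exact Nat.add_le_add_left (Nat.mul_le_mul_right _ h2) _
  exact PT.div (PT.add (PT.mul (PT.const 2) h1.snd.fst) h1.snd.snd) (PT.mul (PT.const 2) h1.snd.snd)

end Vale.Agent.P328F
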