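import Vale.Agent.P328.GFacts
import Vale.Agent.P328.GBridge
import Vale.Agent.Lib.PTM.Ex

/-!
The sampler for contingency tables as a black box, a Chernoff bound for blocks of coins, and the
self-reducibility of contingency tables.
-/

namespace Vale.Agent.P328F

open Finset hiding val
open Vale.Agent.P328 Vale.Agent.Lib.PTM Vale.Agent.Lib.PolyTime

theorem ex_eq (m : ℕ) (F : List Bool → ℝ) : ex m F = Ex m F := by
  induction m generalizing F with
  | zero => rfl
  | succ m ih => rw [ex_succ, ih, ih]; rfl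

/-! ### One sample -/

/-- The number of coins of one sample. -/
def sc (m n N s : ℕ) : ℕ := 16 * (s + 1) * tcoins m n N (gsteps m n s)

theorem sc_mono (m n s : ℕ) {N N' : ℕ} (h : N ≤ N') : sc m n N s ≤ sc m n N' s := by
  have h1 : N.size ≤ N'.size := Nat.size_le_size h
  unfold sc tcoins
  gcongr

/-- One sample. -/
def samp (D : Dat) (s : ℕ) (ρ : List Bool) : List (List ℕ) :=
  D.output s (ρ.take (sc D.m D.n D.N s))

theorem samp_law {m n : ℕ} (r : Fin m → ℕ) (c : Fin n → ℕ) (hm : 1 ≤ m) (hn : 1 ≤ n)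
    (hrc : ∑ i, r i = ∑ j, c j) (s : ℕ) : ∃ g : List Bool → Fin m → Fin n → ℕ,
      (∀ ρ, g ρ ∈ tables r c ∧ ∀ (i : Fin m) (j : Fin n),
        ent (samp (List.ofFn r, List.ofFn c) s ρ) i j = g ρ i j) ∧
      ∀ B, sc m n (∑ i, r i) s ≤ B → ∀ A ⊆ tables r c,
        |Ex B (fun ρ => ind (g ρ ∈ A)) - (A.card : ℝ) / (tables r c).card| ≤ 2 * (1 / 2) ^ s := by
  obtain ⟨i0, hi, hr⟩ := amax_spec hm r
  obtain ⟨j0, hj, hc⟩ := amax_spec hn c
  set P : Par m n := ⟨r, c, i0, j0, hr, hc, hrc⟩ with hP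
  have hR : Dat.Rel (List.ofFn r, List.ofFn c) P :=
    ⟨List.length_ofFn, List.length_ofFn, List.sum_ofFn, getD_ofFn r, getD_ofFn c, hi, hj⟩
  have h1 := P.facts
  have h0 := first_mem hrc
  refine ⟨fun ρ => P.output _ s (ρ.take (sc m n (∑ i, r i) s)),
    fun ρ => ⟨Par.output_mem h1 h0 _ _, fun i j => ?_⟩, fun B hB A hA => ?_⟩
  · have h2 := hR.output h1 h0 (fun _ _ => rfl) s (ρ.take (sc m n (∑ i, r i) s))
    rw [mat_eq] at h2
    unfold samp
    rw [hR.m, hR.n, hR.N]
    change ent (Dat.output _ s (ρ.take (sc m n (∑ i, r i) s))) i j = _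
    rw [EncInj.inj h2]
    simp [ent, List.getD_eq_getElem?_getD]
  · have h2 := Par.output_tv h1 h0 s
    rw [Ex_take hB fun ρ => ind (P.output _ s ρ ∈ A)]
    refine le_trans ?_ ((sum_le_sum_of_subset_of_nonneg hA fun _ _ _ => abs_nonneg _).trans h2)
    refine le_trans (le_of_eq ?_) (abs_sum_le_sum_abs _ _)
    congr 1
    rw [sum_sub_distrib, sum_const, nsmul_eq_mul, mul_one_div]
    congr 1
    simp only [ex_eq]
    rw [← Ex_sum]
    refine Ex_congr fun ρ _ => ?_
    by_cases h : P.output (fun i j => firstF (List.ofFn r) (List.ofFn c) i j) s ρ ∈ A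
    · rw [ind_of h, sum_ind h]
    · rw [ind_of_not h]
      refine (sum_eq_zero fun X hX => ind_of_not fun e => h ?_).symm
      rw [e]
      exact hX

/-! ### A Chernoff bound -/

theorem Ex_blk_prod (m B : ℕ) (G : List Bool → ℝ) :
    Ex (m * B) (fun ρ => ∏ i ∈ range m, G (blk B i ρ)) = Ex B G ^ m := by
  induction m with
  | zero => simp [Ex]
  | succ m ih =>
    simp only [prod_range_succ', blk_succ, blk_zero]
    rw [show (m + 1) * B = B + m * B by ring,
      Ex_split B (m * B) fun x y => (∏ i ∈ range m, G (blk B i y)) * G x]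
    simp only [Ex_mul', ih]
    rw [Ex_mul, pow_succ]

theorem chernoff_one (m B : ℕ) (Y : List Bool → ℝ) (hY : ∀ ρ, |Y ρ| ≤ 1) (h0 : Ex B Y = 0) {s : ℝ}
    (hs0 : 0 ≤ s) (hs1 : s ≤ 1) :
    Ex (m * B) (fun ρ => ind (m * s < ∑ i ∈ range m, Y (blk B i ρ))) ≤
      Real.exp (-(m * s ^ 2 / 4)) := by
  have h1 : Ex B (fun ρ => Real.exp (s / 2 * Y ρ)) ≤ Real.exp (s ^ 2 / 4) := by
    have h2 : Ex B (fun ρ => Real.exp (s / 2 * Y ρ)) ≤
        Ex B fun ρ => (1 + s ^ 2 / 4) + s / 2 * Y ρ := by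
      refine Ex_mono fun ρ _ => ?_
      have h3 : |s / 2 * Y ρ| ≤ s / 2 := by
        rw [abs_mul, abs_of_nonneg (by linarith : 0 ≤ s / 2)]
        exact mul_le_of_le_one_right (by linarith) (hY ρ)
      have h4 := Real.abs_exp_sub_one_sub_id_le (h3.trans (by linarith))
      have h5 : (s / 2 * Y ρ) ^ 2 ≤ (s / 2) ^ 2 := by
        rw [← sq_abs]
        exact pow_le_pow_left₀ (abs_nonneg _) h3 2
      have h6 := (abs_le.1 h4).2
      nlinarith
    rw [Ex_add, Ex_const, Ex_mul, h0] at h2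
    have := Real.add_one_le_exp (s ^ 2 / 4)
    linarith
  have h7 : Ex (m * B) (fun ρ => ind (m * s < ∑ i ∈ range m, Y (blk B i ρ))) ≤
      Ex (m * B) fun ρ => Real.exp (-(s / 2 * (m * s))) *
        ∏ i ∈ range m, Real.exp (s / 2 * Y (blk B i ρ)) := by
    refine Ex_mono fun ρ _ => ?_
    rw [← Real.exp_sum, ← Real.exp_add, ← mul_sum]
    by_cases h : m * s < ∑ i ∈ range m, Y (blk B i ρ)
    · rw [ind_of h]
      refine Real.one_le_exp ?_
      have := mul_le_mul_of_nonneg_left h.le (by linarith : 0 ≤ s / 2)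
      linarith
    · rw [ind_of_not h]
      exact (Real.exp_pos _).le
  rw [Ex_mul, Ex_blk_prod m B fun ρ => Real.exp (s / 2 * Y ρ)] at h7
  refine h7.trans ?_
  have h8 := pow_le_pow_left₀ (Ex_nonneg fun ρ => (Real.exp_pos (s / 2 * Y ρ)).le) h1 m
  refine (mul_le_mul_of_nonneg_left h8 (Real.exp_pos _).le).trans (le_of_eq ?_)
  rw [← Real.exp_nat_mul, ← Real.exp_add]
  congr 1
  ring

theorem chernoff (m B : ℕ) (X : List Bool → ℝ) (hX0 : ∀ ρ, 0 ≤ X ρ) (hX1 : ∀ ρ, X ρ ≤ 1) {s : ℝ}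
    (hs0 : 0 ≤ s) (hs1 : s ≤ 1) :
    Ex (m * B) (fun ρ => ind (m * s < |∑ i ∈ range m, X (blk B i ρ) - m * Ex B X|)) ≤
      2 * Real.exp (-(m * s ^ 2 / 4)) := by
  have m0 : 0 ≤ Ex B X := Ex_nonneg hX0
  have m1 : Ex B X ≤ 1 := Ex_le hX1
  have a1 := chernoff_one m B (fun ρ => X ρ - Ex B X)
    (fun ρ => abs_le.2 ⟨by linarith [hX0 ρ], by linarith [hX1 ρ]⟩)
    (by rw [Ex_sub, Ex_const, sub_self]) hs0 hs1
  have a2 := chernoff_one m B (fun ρ => Ex B X - X ρ)
    (fun ρ => abs_le.2 ⟨by linarith [hX1 ρ], by linarith [hX0 ρ]⟩)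
    (by rw [Ex_sub, Ex_const, sub_self]) hs0 hs1
  refine le_trans ?_ ((add_le_add a1 a2).trans (le_of_eq (two_mul _).symm))
  rw [← Ex_add]
  refine Ex_mono fun ρ _ => ?_
  simp only [sum_sub_distrib, sum_const, card_range, nsmul_eq_mul]
  by_cases h : m * s < |∑ i ∈ range m, X (blk B i ρ) - m * Ex B X|
  · rw [ind_of h]
    rcases lt_abs.1 h with h' | h'
    · rw [ind_of h']
      linarith [Lib.PTM.ind_nonneg (m * s < m * Ex B X - ∑ i ∈ range m, X (blk B i ρ))]
    · rw [neg_sub] at h'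
      rw [ind_of h']
      linarith [Lib.PTM.ind_nonneg (m * s < ∑ i ∈ range m, X (blk B i ρ) - m * Ex B X)]
  · rw [ind_of_not h]
    exact add_nonneg (Lib.PTM.ind_nonneg _) (Lib.PTM.ind_nonneg _)

/-- A union bound. -/
theorem union_bound {ι : Type} [Fintype ι] (m : ℕ) (Bad : ι → List Bool → Prop)
    (Good : List Bool → Prop) {p : ℝ} (h : ∀ j, Ex m (fun ρ => ind (Bad j ρ)) ≤ p)
    (hG : ∀ ρ, (∀ j, ¬ Bad j ρ) → Good ρ) :
    1 - Fintype.card ι * p ≤ Ex m fun ρ => ind (Good ρ) := by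
  have h1 : Ex m (fun ρ => 1 - ∑ j, ind (Bad j ρ)) ≤ Ex m fun ρ => ind (Good ρ) := by
    refine Ex_mono fun ρ _ => ?_
    by_cases h2 : ∃ j, Bad j ρ
    · obtain ⟨j, hj⟩ := h2
      have := single_le_sum (f := fun j => ind (Bad j ρ)) (fun _ _ => Lib.PTM.ind_nonneg _)
        (mem_univ j)
      rw [ind_of hj] at this
      linarith [Lib.PTM.ind_nonneg (Good ρ)]
    · rw [ind_of (hG ρ fun j hj => h2 ⟨j, hj⟩)]
      have : 0 ≤ ∑ j, ind (Bad j ρ) := sum_nonneg fun _ _ => Lib.PTM.ind_nonneg _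
      linarith
  rw [Ex_sub, Ex_const, Ex_sum] at h1
  have h3 : ∑ j, Ex m (fun ρ => ind (Bad j ρ)) ≤ Fintype.card ι * p := by
    refine (sum_le_sum fun j _ => h j).trans (le_of_eq ?_)
    rw [sum_const, card_univ, nsmul_eq_mul]
  linarith

/-! ### Self-reducibility -/

/-- A margin vector, lowered by `t` at the place `i`. -/
def low {k : ℕ} (v : Fin k → ℕ) (i : Fin k) (t : ℕ) (i' : Fin k) : ℕ :=
  v i' - if i' = i then t else 0

theorem sum_low {k : ℕ} (v : Fin k → ℕ) (i : Fin k) {t : ℕ} (h : t ≤ v i) :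
    ∑ i', low v i t i' + t = ∑ i', v i' := by
  have h1 : ∑ i' : Fin k, (if i' = i then t else 0) = t := by simp
  conv_lhs => rw [← h1]
  rw [h1]
  nth_rewrite 2 [← h1]
  rw [← sum_add_distrib]
  refine sum_congr rfl fun i' _ => ?_
  unfold low
  split_ifs with h2
  · subst h2
    omega
  · omega

theorem card_low {m n : ℕ} (r : Fin m → ℕ) (c : Fin n → ℕ) (i : Fin m) (j : Fin n) {t : ℕ}
    (hr : t ≤ r i) (hc : t ≤ c j) :
    ((tables r c).filter fun X => t ≤ X i j).card = (tables (low r i t) (low c j t)).card := by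
  have k1 : ∀ (Y : Fin m → Fin n → ℕ) (i' : Fin m),
      ∑ j', (Y i' j' + if i' = i ∧ j' = j then t else 0) =
        ∑ j', Y i' j' + if i' = i then t else 0 := by
    intro Y i'
    rw [sum_add_distrib]
    congr 1
    by_cases h : i' = i <;> simp [h]
  have k2 : ∀ (Y : Fin m → Fin n → ℕ) (j' : Fin n),
      ∑ i', (Y i' j' + if i' = i ∧ j' = j then t else 0) =
        ∑ i', Y i' j' + if j' = j then t else 0 := by
    intro Y j'
    rw [sum_add_distrib]
    congr 1
    by_cases h : j' = j <;> simp [h]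
  have k3 : ∀ X : Fin m → Fin n → ℕ, t ≤ X i j → ∀ i' j',
      (X i' j' - if i' = i ∧ j' = j then t else 0) + (if i' = i ∧ j' = j then t else 0) =
        X i' j' := by
    intro X hX i' j'
    split_ifs with h
    · rw [h.1, h.2]
      omega
    · rfl
  refine card_nbij' (fun X i' j' => X i' j' - if i' = i ∧ j' = j then t else 0)
    (fun Y i' j' => Y i' j' + if i' = i ∧ j' = j then t else 0) (fun X hX => ?_) (fun Y hY => ?_)
    (fun X hX => ?_) fun Y _ => ?_
  · rw [mem_coe, mem_filter, mem_tables] at hX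
    rw [mem_coe, mem_tables]
    refine ⟨fun i' => ?_, fun j' => ?_⟩
    · have h1 := k1 (fun i' j' => X i' j' - if i' = i ∧ j' = j then t else 0) i'
      simp only [k3 X hX.2, hX.1.1] at h1
      exact Nat.eq_sub_of_add_eq h1.symm
    · have h1 := k2 (fun i' j' => X i' j' - if i' = i ∧ j' = j then t else 0) j'
      simp only [k3 X hX.2, hX.1.2] at h1
      exact Nat.eq_sub_of_add_eq h1.symm
  · rw [mem_coe, mem_tables] at hY
    rw [mem_coe, mem_filter, mem_tables]
    refine ⟨⟨fun i' => ?_, fun j' => ?_⟩, by simp⟩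
    · rw [k1, hY.1, low]
      split_ifs with h
      · subst h
        omega
      · rfl
    · rw [k2, hY.2, low]
      split_ifs with h
      · subst h
        omega
      · rfl
  · rw [mem_coe, mem_filter] at hX
    exact funext fun i' => funext fun j' => k3 X hX.2 i' j'
  · exact funext fun i' => funext fun j' => Nat.add_sub_cancel _ _

theorem card_of_sum_eq_zero {m n : ℕ} {r : Fin m → ℕ} {c : Fin n → ℕ}
    (hrc : ∑ i, r i = ∑ j, c j) (h : ∑ i, r i = 0) : (tables r c).card = 1 := by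
  refine card_eq_one.2 ⟨_, eq_singleton_iff_unique_mem.2 ⟨first_mem hrc, fun X hX => ?_⟩⟩
  have k : ∀ Y ∈ tables r c, Y = 0 := fun Y hY => funext fun i => funext fun j => by
    have h1 := (mem_tables.1 hY).1 i
    have h2 := single_le_sum (f := r) (fun _ _ => Nat.zero_le _) (mem_univ i)
    have h3 := single_le_sum (f := Y i) (fun _ _ => Nat.zero_le _) (mem_univ j)
    change Y i j = 0
    omega
  rw [k _ hX, k _ (first_mem hrc)]

end Vale.Agent.P328F
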